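import Crest.Agent.R330.BM.B
import Crest.Agent.R330.IBF
import Crest.Agent.R330.IBI
import Crest.Agent.R330.IBL
import Crest.Agent.R330.IBU

/-! # Row 330, BM/C: proofs of the Born–Oppenheimer theorems -/

set_option autoImplicit false
set_option linter.unusedSectionVars false

noncomputable section

open MeasureTheory Filter Topology
open scoped InnerProductSpace ContDiff Matrix
open Crest.MathPhysics.MatrixQM (GammaNine)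

namespace Crest.Agent.R330

theorem bm_weaken {a k₁ k₂ m r : ℝ} (ha : 0 ≤ a) (hk : 0 < k₁) (hk' : k₁ ≤ k₂) (hr : 0 < r)
    (h : a ≤ k₁ / r * m) : a ≤ k₂ / r * m := by
  have hm : 0 ≤ m := by
    by_contra hm
    have : k₁ / r * m < 0 := mul_neg_of_pos_of_neg (by positivity) (not_le.mp hm)
    linarith
  refine h.trans ?_
  gcongr

theorem bm_arith {A N η m : ℝ} (hN : 0 ≤ N) (hm : 0 < m) (hm1 : m ≤ 1) (hmη : m ≤ η)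
    (h : A ≤ (1 + m / 5) * N + m / 5 * A) : A ≤ (1 + η) * N := by
  have h1 : (1 - m / 5) * A ≤ (1 - m / 5) * ((1 + m) * N) := by
    have : (1 + m / 5) * N ≤ (1 - m / 5) * (1 + m) * N := by
      refine mul_le_mul_of_nonneg_right ?_ hN
      nlinarith
    nlinarith
  have h2 : A ≤ (1 + m) * N := le_of_mul_le_mul_left h1 (by linarith)
  refine h2.trans ?_
  gcongr

variable {E Z L H F : Type}
  [NormedAddCommGroup E] [InnerProductSpace ℝ E] [FiniteDimensional ℝ E]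
  [NormedAddCommGroup Z] [InnerProductSpace ℝ Z] [FiniteDimensional ℝ Z]
  [NormedAddCommGroup L] [InnerProductSpace ℝ L] [FiniteDimensional ℝ L]
  [NormedAddCommGroup H] [InnerProductSpace ℝ H] [FiniteDimensional ℝ H]
  [NormedAddCommGroup F] [InnerProductSpace ℂ F] [FiniteDimensional ℂ F]
  [MeasurableSpace E] [BorelSpace E] [MeasurableSpace Z] [BorelSpace Z]
  [MeasurableSpace L] [BorelSpace L] [MeasurableSpace H] [BorelSpace H]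
  {P : Type} [Fintype P] {𝔤 : Lie E} (D : Levi 𝔤 Z L H P) (C : Cl (Th E) F) (σ : Spn)

namespace Levi

theorem bm_adm_continuousOn {Ω : ℝ} {wl : X Z × X L → ℝ} (h : Adm Ω wl) :
    ContinuousOn (fun x => wl (D.zc x, D.lc x)) {x | D.zc x ≠ 0} :=
  h.1.continuousOn.comp (D.bm_continuous_zc.prodMk D.bm_continuous_lc).continuousOn fun _ hx => hx

theorem bm_adm_norm : Adm 1 fun q : X Z × X L => ‖q.1‖ := by
  refine ⟨fun q hq => ((contDiffAt_norm ℝ hq).comp q contDiffAt_fst).contDiffWithinAt,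
    fun q hq => ⟨norm_pos_iff.mpr hq, ?_⟩⟩
  have hz := norm_pos_iff.mpr hq
  rw [one_mul, div_self hz.ne']
  have hL : LipschitzWith 1 fun q : X Z × X L => ‖q.1‖ := by
    have := lipschitzWith_one_norm.comp (LipschitzWith.prod_fst (α := X Z) (β := X L))
    rw [one_mul] at this
    exact this
  simpa using norm_fderiv_le_of_lipschitz ℝ hL

/-- The local form of the Born–Oppenheimer inequality. -/
theorem bm_local {𝒱 : Wts} {κ θ R c β lm ε η m A BC Ω₁ : ℝ} {u : X E → F} (hκ : 1 ≤ κ)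
    (hθ : 0 < θ) (hθ' : θ ≤ 1 / 2) (hR : 2 ≤ R) (hc : 0 < c) (hβ : 0 < β) (hlm : 0 < lm)
    (hε : 0 ≤ ε) (hm : 0 < m) (hm1 : m ≤ 1) (hmη : m ≤ η) (hBC : 0 < BC)
    (h𝒱 : 𝒱.OK) (hu : D.Loc C σ.G 𝒱 κ θ R u) (hadm : Adm Ω₁ (D.bmW κ c (β / 4) lm ε))
    (hA : ∀ (z : X Z) (l : X L), 1 ≤ ‖z‖ → D.bmW κ c (β / 4) lm ε (z, l) ≤ A)
    (hRA : BC * A / R ≤ m / 10) {lm' : ℝ} (hlm' : 0 < lm') (hs : β * lm' ^ 2 / lm ^ 4 ≤ 1 / 20)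
    (hL : ∫ q, D.WL (6 / 5) c β lm' ε q.1 q.2 * ‖D.red C σ.G u q‖ ^ 2 ≤
      ∫ q, ‖D.Qlight C σ ε (D.red C σ.G u) q‖ ^ 2)
    (hI : ∫ q, ‖D.Qlight C σ ε (D.red C σ.G u) q‖ ^ 2 ≤
      (1 + m / 10 / (1 + 1 / c)) * D.PI (fun x => ‖Qe 𝔤 C σ ε u x‖ ^ 2) +
        m / 10 / (1 + 1 / c) * D.PI fun x => (1 / ‖x‖ ^ 2 + ε) * ‖u x‖ ^ 2)
    (hC : D.PI (fun x => D.bmW κ c (β / 4) lm ε (D.zc x, D.lc x) * ‖D.dfc C σ.G u x‖ ^ 2) ≤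
      m / 10 * D.PI (fun x => D.bmW κ c (β / 4) lm ε (D.zc x, D.lc x) * ‖u x‖ ^ 2) +
        BC * D.PI fun x => D.bmW κ c (β / 4) lm ε (D.zc x, D.lc x) / ‖x‖ * ‖Qe 𝔤 C σ ε u x‖ ^ 2) :
    D.PI (fun x => D.WL (23 / 20) c (β / 4) lm ε (D.zc x) (D.lc x) * ‖u x‖ ^ 2) ≤
      (1 + η) * D.PI fun x => ‖Qe 𝔤 C σ ε u x‖ ^ 2 := by
  have hR0 : 0 < R := by linarith
  have hβ4 : 0 ≤ β / 4 := by positivity
  have huc : Continuous u := hu.1.1.continuous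
  have hus : ∀ x, u x ≠ 0 → x ∈ tsupport u := fun x hx => subset_tsupport _ hx
  have hQc := bm_continuous_Qe C σ ε hu.1 (𝔤 := 𝔤)
  have hQs := bm_supp_Qe C σ ε u (𝔤 := 𝔤)
  have hz1 : ∀ x ∈ D.tube κ θ, R ≤ ‖x‖ → 1 ≤ ‖D.zc x‖ := fun x hx hxR => by
    have := D.bm_half_le hθ' hx
    linarith
  have hz0 : ∀ x ∈ D.tube κ θ, R ≤ ‖x‖ → D.zc x ≠ 0 := fun x hx hxR =>
    norm_pos_iff.mp (lt_of_lt_of_le one_pos (hz1 x hx hxR))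
  have hcW := D.bm_adm_continuousOn hadm
  set W := D.bmW κ c (β / 4) lm ε with hW
  set N := D.PI fun x => ‖Qe 𝔤 C σ ε u x‖ ^ 2 with hN
  set S := D.PI fun x => W (D.zc x, D.lc x) * ‖u x‖ ^ 2 with hS
  have hN1 : D.PI (fun x => (1 : ℝ) * ‖Qe 𝔤 C σ ε u x‖ ^ 2) = N := by simp only [one_mul, hN]
  have hN0 : 0 ≤ N := by
    rw [← hN1]
    exact D.bm_PI_nonneg C hu hQs (g := fun _ => 1) fun _ _ _ => zero_le_one
  -- (1) the target weight is below the smooth weight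
  have e1 : D.PI (fun x => D.WL (23 / 20) c (β / 4) lm ε (D.zc x) (D.lc x) * ‖u x‖ ^ 2) ≤ 1 * S :=
    D.bm_PI_mono C hθ' hR0 hu huc hus hcW
      (fun x _ _ => D.WL_nonneg (by norm_num) hc.le hβ4 hε _ _)
      fun x hx hxR => by
        rw [one_mul]
        exact D.WL_le_bmW hκ hβ4 hlm (hz0 x hx hxR) (D.bm_zc_le_M hx)
  -- (2) Pythagoras
  have e2 := (D.pyth C σ hκ hθ hθ' hR0 (D.bm_loc_empty C hu) hadm.1.continuousOn).2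
  -- (3) the effective part
  have heff := D.eff_red C σ h𝒱 hκ hθ hθ' hR0 hu
  have e3 : ∫ q, W q * ‖D.red C σ.G u q‖ ^ 2 ≤
      ∫ q, D.WL (6 / 5) c β lm' ε q.1 q.2 * ‖D.red C σ.G u q‖ ^ 2 := by
    have hq0 : ∀ q, D.red C σ.G u q ≠ 0 → q.1 ≠ 0 ∧ ∀ p, ‖q.1‖ ≤ κ * D.M p q.1 := fun q hq => by
      obtain ⟨h1, h2, -⟩ := heff.2.2.2.2 q (subset_tsupport _ hq)
      exact ⟨norm_pos_iff.mp (lt_of_lt_of_le (by positivity) h1), h2⟩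
    refine integral_mono_of_nonneg (Eventually.of_forall fun q => ?_)
      (D.integrable_WL C hκ (by positivity) (by norm_num) hc.le hβ.le hε hlm' heff)
      (Eventually.of_forall fun q => ?_)
    · by_cases hq : D.red C σ.G u q = 0
      · simp [hq]
      exact mul_nonneg (hadm.2 q (hq0 q hq).1).1.le (by positivity)
    · by_cases hq : D.red C σ.G u q = 0
      · simp [hq]
      exact mul_le_mul_of_nonneg_right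
        (D.bmW_le_WL hκ hβ.le hlm hlm' hs (hq0 q hq).1 (hq0 q hq).2) (by positivity)
  -- (4) the error of the intertwining
  have e4 : D.PI (fun x => (1 / ‖x‖ ^ 2 + ε) * ‖u x‖ ^ 2) ≤ (1 + 1 / c) * S :=
    D.bm_PI_mono C hθ' hR0 hu huc hus hcW (fun x _ _ => by positivity) fun x hx hxR => by
      have h1 := D.bmW_ge κ c hβ4 lm ε (D.zc x, D.lc x)
      have h2 := hz1 x hx hxR
      have h3 := D.norm_zc_le x
      have h4 : 1 / ‖x‖ ^ 2 ≤ 23 / 20 / ‖D.zc x‖ ^ 2 := by gcongr; norm_num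
      have h5 : 0 ≤ 23 / 20 / ‖D.zc x‖ ^ 2 := by positivity
      have h6 : 0 ≤ c * ε := by positivity
      simp only at h1
      have h7 : ε ≤ 1 / c * W (D.zc x, D.lc x) := by
        rw [one_div, ← div_eq_inv_mul, le_div_iff₀ hc]
        linarith
      linarith
  -- (5) the error of the completeness
  have e5 : D.PI (fun x => W (D.zc x, D.lc x) / ‖x‖ * ‖Qe 𝔤 C σ ε u x‖ ^ 2) ≤ A / R * N := by
    rw [← hN1]
    refine D.bm_PI_mono C hθ' hR0 hu hQc hQs (g₂ := fun _ => 1) continuousOn_const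
      (fun x hx hxR => div_nonneg (hadm.2 (D.zc x, D.lc x) (hz0 x hx hxR)).1.le (norm_nonneg _))
      fun x hx hxR => ?_
    have h1 := hA (D.zc x) (D.lc x) (hz1 x hx hxR)
    have h2 := (hadm.2 (D.zc x, D.lc x) (hz0 x hx hxR)).1.le
    rw [mul_one]
    gcongr
    linarith
  have hc1 : 1 ≤ 1 + 1 / c := by have := one_div_pos.mpr hc; linarith
  have f1 : m / 10 / (1 + 1 / c) * D.PI (fun x => (1 / ‖x‖ ^ 2 + ε) * ‖u x‖ ^ 2) ≤ m / 10 * S := by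
    refine (mul_le_mul_of_nonneg_left e4 (by positivity)).trans (le_of_eq ?_)
    field_simp
  have f2 : (1 + m / 10 / (1 + 1 / c)) * N ≤ (1 + m / 10) * N := by
    have : m / 10 / (1 + 1 / c) ≤ m / 10 := div_le_self (by positivity) hc1
    exact mul_le_mul_of_nonneg_right (by linarith) hN0
  have f3 : BC * D.PI (fun x => W (D.zc x, D.lc x) / ‖x‖ * ‖Qe 𝔤 C σ ε u x‖ ^ 2) ≤ m / 10 * N := by
    refine (mul_le_mul_of_nonneg_left e5 hBC.le).trans ?_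
    rw [← mul_assoc, ← mul_div_assoc]
    gcongr
  have f4 : S ≤ (1 + m / 5) * N + m / 5 * S := by
    rw [← hS] at e2
    linarith
  have := bm_arith hN0 hm hm1 hmη f4
  linarith

variable {K : Type} [Group K] [TopologicalSpace K] [IsTopologicalGroup K]
  [CompactSpace K] [MeasurableSpace K] [BorelSpace K] (Γ : Grp 𝔤 K)

theorem bm_main (hT : TailIneq D.𝔩 (D.CL C) σ) (hG : GapIneq D.𝔩 (D.CL C) σ) :
    ∃ c β ε₁ : ℝ, 0 < c ∧ 0 < β ∧ 0 < ε₁ ∧ ∀ κ η : ℝ, 1 ≤ κ → 0 < η → ∃ θ₀ : ℝ, 0 < θ₀ ∧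
      ∀ θ, 0 < θ → θ ≤ θ₀ → ∃ p : X E → ℝ, D.FPW κ θ p ∧ ∀ lm, 0 < lm → ∃ R : ℝ,
        ∀ Ω : Set (X E), IsOpen Ω → (∀ k, ∀ x ∈ Ω, Γ.ax k x ∈ Ω) → (∀ x ∈ Ω, R ≤ ‖x‖) →
          D.GapProp κ θ Ω →
          (∀ x ∈ Ω, ‖fderiv ℝ (Γ.avg p) x‖ ≤ η / ‖x‖ * Γ.avg p x) ∧
          ∀ ε k : ℝ, 0 ≤ ε → ε ≤ ε₁ → ∀ (𝒱 : Wts) (ψ : X E → F), 𝒱.OK → Cls 𝔤 C σ.G 𝒱 ψ →
            (ε = 0 ∨ (0 ≤ k ∧ (V0, k) ∈ 𝒱)) → tsupport ψ ⊆ Ω →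
            ∫ x, p x * (D.WL (23 / 20) c β lm ε (D.zc x) (D.lc x) * ‖ψ x‖ ^ 2) ≤
              (1 + η) * ∫ x, p x * ‖Qe 𝔤 C σ ε ψ x‖ ^ 2 := by
  obtain ⟨c, β, ε₁, hc, hβ, hε₁, hε₁1, hL⟩ := D.light C σ hT hG
  refine ⟨c, β / 4, ε₁, hc, by positivity, hε₁, fun κ η hκ hη => ?_⟩
  obtain ⟨m, hm, hm1, hmη⟩ : ∃ m : ℝ, 0 < m ∧ m ≤ 1 ∧ m ≤ η :=
    ⟨min 1 η, lt_min one_pos hη, min_le_left _ _, min_le_right _ _⟩
  obtain ⟨θL, hθL, hL⟩ := hL κ hκ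
  obtain ⟨B₁, B₂, θU, hθU, hU⟩ := D.localise C σ Γ hκ
  obtain ⟨θP, hθP, hθP4, hP⟩ := D.exists_fpw Γ hκ hm
  obtain ⟨BF, θF, hBF, hθF, hF⟩ := D.fine C σ hκ B₁ B₂
  obtain ⟨θI, δ, hθI, hδ, hI⟩ := D.intertwine C σ hκ
    (by positivity : 0 < m / 10 / (1 + 1 / c)) B₁ hBF
  obtain ⟨θD, hθD, hD⟩ := D.defIneq C σ hκ hδ B₁
  obtain ⟨θC, BC, hθC, hBC, hC⟩ := D.complete C σ hκ (by positivity : 0 < m / 10) B₁
  refine ⟨min (θL / 2) (min θU (min θP (min θF (min θI (min θD θC))))), by positivity,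
    fun θ hθ hθ0 => ?_⟩
  simp only [le_min_iff] at hθ0
  obtain ⟨t1, t2, t3, t4, t5, t6, t7⟩ := hθ0
  have hθ' : θ ≤ 1 / 2 := by linarith
  obtain ⟨χ, hχ, hχ0, -, hχs, hχ1, hfpw, hPΩ⟩ := hP θ hθ t3
  refine ⟨_, hfpw, fun lm hlm => ?_⟩
  obtain ⟨lm', hlm', hs⟩ : ∃ lm' : ℝ, 0 < lm' ∧ β * lm' ^ 2 / lm ^ 4 ≤ 1 / 20 := by
    refine ⟨√(lm ^ 4 / (20 * β)), Real.sqrt_pos.mpr (by positivity), le_of_eq ?_⟩
    rw [Real.sq_sqrt (by positivity)]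
    field_simp
  obtain ⟨Ω₁, hΩ₁, hadm⟩ := D.bmW_adm hκ hc.le (by positivity : 0 ≤ β / 4) hlm
  obtain ⟨A, hA, hAle⟩ := D.bmW_le_const hκ hc.le (by positivity : 0 ≤ β / 4) hlm
  obtain ⟨RL, hL⟩ := hL (2 * θ) (by positivity) (by linarith) lm' hlm'
  obtain ⟨RU, -, hU⟩ := hU θ hθ t2
  obtain ⟨RF, hF⟩ := hF θ hθ t4
  obtain ⟨RI, hI⟩ := hI θ hθ t5
  obtain ⟨RD, hD⟩ := hD θ hθ t6
  obtain ⟨RC, hC⟩ := hC θ hθ t7 Ω₁ hΩ₁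
  obtain ⟨R, r1, r2, r3, r4, r5, r6, r7, r8⟩ : ∃ R : ℝ, 2 * RL ≤ R ∧ RU ≤ R ∧ RF ≤ R ∧ RI ≤ R ∧
      RD ≤ R ∧ RC ≤ R ∧ 2 ≤ R ∧ BC * A / (m / 10) ≤ R :=
    ⟨max (2 * RL) (max RU (max RF (max RI (max RD (max RC (max 2 (BC * A / (m / 10)))))))),
      by simp⟩
  have hR0 : 0 < R := by linarith
  refine ⟨R, fun Ω hΩo hΩi hΩR hgap => ?_⟩
  have hx0 : ∀ x ∈ Ω, 0 < ‖x‖ := fun x hx => lt_of_lt_of_le hR0 (hΩR x hx)
  obtain ⟨hg1, hg2⟩ := hPΩ Ω hΩo hΩi (fun x hx => by linarith [hΩR x hx]) hgap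
  refine ⟨fun x hx => bm_weaken (ContinuousLinearMap.opNorm_nonneg _) hm hmη (hx0 x hx) (hg1 x hx),
    fun ε k hε hεε 𝒱 ψ h𝒱 hψ hk hsupp => ?_⟩
  have hε1 : ε ≤ 1 := hεε.trans hε₁1
  obtain ⟨hloc, hE1, hE2, hpu, hpQ⟩ := hU R r2 χ hχ hχ0 hχs hχ1 Ω hΩo hΩR hgap
    (fun Ω' hΩ' wl hwl => ⟨(hg2 Ω' hΩ' wl hwl).1, fun x hx =>
      bm_weaken (ContinuousLinearMap.opNorm_nonneg _) (by positivity) (by linarith) (hx0 x hx)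
        ((hg2 Ω' hΩ' wl hwl).2 x hx)⟩) ε k hε hε1 𝒱 ψ hψ hk hsupp
  have hloc' := D.bm_loc_empty C hloc
  have key := D.bm_local C σ hκ hθ hθ' r7 hc hβ hlm hε hm hm1 hmη hBC h𝒱 hloc (hadm ε hε)
    (hAle ε hε1) (by rw [div_le_iff₀ hR0]; rw [div_le_iff₀ (by positivity)] at r8; linarith)
    hlm' hs
    (hL (R / 2) (by linarith) ε k hε hεε 𝒱 _ (D.eff_red C σ h𝒱 hκ hθ hθ' hR0 hloc) hk)
    (hI R r4 ε hε hε1 _ hloc' hE1 (hF R r3 ε hε hε1 _ hloc' hE1 hE2) (hD R r5 ε hε hε1 _ hloc' hE1))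
    (hC R r6 ε hε hε1 _ hloc' hE1 _ (hadm ε hε))
  unfold PI at key
  simp only [hpQ] at key
  refine le_of_eq_of_le (integral_congr_ae (Eventually.of_forall fun x => ?_)) key
  simp only
  rw [mul_left_comm, ← hpu x, mul_left_comm]

theorem bm_conf {𝒱 : Wts} (h𝒱 : 𝒱.OK) (hK : D.Kill C σ.G 𝒱) {κ η : ℝ} (hκ : 1 ≤ κ) (hη : 0 < η) :
    ∃ θ₀ B : ℝ, 0 < θ₀ ∧ 0 < B ∧ ∀ θ, 0 < θ → θ ≤ θ₀ → ∃ p : X E → ℝ, D.FPW κ θ p ∧ ∃ R : ℝ,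
      ∀ Ω : Set (X E), IsOpen Ω → (∀ k, ∀ x ∈ Ω, Γ.ax k x ∈ Ω) → (∀ x ∈ Ω, R ≤ ‖x‖) →
        D.GapProp κ θ Ω →
        (∀ x ∈ Ω, ‖fderiv ℝ (Γ.avg p) x‖ ≤ η / ‖x‖ * Γ.avg p x) ∧
        ∀ ψ : X E → F, Cls 𝔤 C σ.G 𝒱 ψ → tsupport ψ ⊆ Ω →
          ∫ x, p x * (‖x‖ * ‖ψ x‖ ^ 2) ≤ B * ∫ x, p x * ‖Qe 𝔤 C σ 0 ψ x‖ ^ 2 := by
  obtain ⟨m, hm, hm1, hmη⟩ : ∃ m : ℝ, 0 < m ∧ m ≤ 1 ∧ m ≤ η :=
    ⟨min 1 η, lt_min one_pos hη, min_le_left _ _, min_le_right _ _⟩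
  obtain ⟨B₁, B₂, θU, hθU, hU⟩ := D.localise C σ Γ hκ
  obtain ⟨θP, hθP, hθP4, hP⟩ := D.exists_fpw Γ hκ hm
  obtain ⟨θC, BC, hθC, hBC, hC⟩ := D.complete C σ hκ (by positivity : (0 : ℝ) < 1 / 2) B₁
  refine ⟨min θU (min θP θC), 4 * BC, by positivity, by positivity, fun θ hθ hθ0 => ?_⟩
  simp only [le_min_iff] at hθ0
  obtain ⟨t2, t3, t7⟩ := hθ0
  have hθ' : θ ≤ 1 / 2 := by linarith
  obtain ⟨χ, hχ, hχ0, -, hχs, hχ1, hfpw, hPΩ⟩ := hP θ hθ t3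
  refine ⟨_, hfpw, ?_⟩
  obtain ⟨RU, hRU, hU⟩ := hU θ hθ t2
  obtain ⟨RC, hC⟩ := hC θ hθ t7 1 zero_le_one
  obtain ⟨R, r2, r6⟩ : ∃ R : ℝ, RU ≤ R ∧ RC ≤ R := ⟨max RU RC, le_max_left _ _, le_max_right _ _⟩
  have hR0 : 0 < R := by linarith
  refine ⟨R, fun Ω hΩo hΩi hΩR hgap => ?_⟩
  have hx0 : ∀ x ∈ Ω, 0 < ‖x‖ := fun x hx => lt_of_lt_of_le hR0 (hΩR x hx)
  obtain ⟨hg1, hg2⟩ := hPΩ Ω hΩo hΩi (fun x hx => by linarith [hΩR x hx]) hgap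
  refine ⟨fun x hx => bm_weaken (ContinuousLinearMap.opNorm_nonneg _) hm hmη (hx0 x hx) (hg1 x hx),
    fun ψ hψ hsupp => ?_⟩
  obtain ⟨hloc, hE1, -, hpu, hpQ⟩ := hU R r2 χ hχ hχ0 hχs hχ1 Ω hΩo hΩR hgap
    (fun Ω' hΩ' wl hwl => ⟨(hg2 Ω' hΩ' wl hwl).1, fun x hx =>
      bm_weaken (ContinuousLinearMap.opNorm_nonneg _) (by positivity) (by linarith) (hx0 x hx)
        ((hg2 Ω' hΩ' wl hwl).2 x hx)⟩) 0 0 le_rfl zero_le_one 𝒱 ψ hψ (Or.inl rfl) hsupp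
  have hloc' := D.bm_loc_empty C hloc
  set u : X E → F := fun x => (χ x : ℂ) • ψ x with hu
  have huc : Continuous u := hloc.1.1.continuous
  have hus : ∀ x, u x ≠ 0 → x ∈ tsupport u := fun x hx => subset_tsupport _ hx
  have hQc := bm_continuous_Qe C σ 0 hloc.1 (𝔤 := 𝔤)
  have hQs := bm_supp_Qe C σ 0 u (𝔤 := 𝔤)
  have hadm : Adm 1 fun q : X Z × X L => ‖q.1‖ := bm_adm_norm
  have hred : ∀ q, D.red C σ.G u q = 0 :=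
    hK κ (2 * θ) (R / 2) (by positivity) _ (D.eff_red C σ h𝒱 hκ hθ hθ' hR0 hloc)
  have e2 := (D.pyth C σ hκ hθ hθ' hR0 hloc' hadm.1.continuousOn).2
  have e3 := hC R r6 0 le_rfl zero_le_one u hloc' hE1 _ hadm
  simp only [hred, norm_zero, ne_eq, OfNat.ofNat_ne_zero, not_false_eq_true, zero_pow, mul_zero,
    integral_zero, zero_add] at e2 e3
  have e1 : D.PI (fun x => ‖x‖ * ‖u x‖ ^ 2) ≤ 2 * D.PI fun x => ‖D.zc x‖ * ‖u x‖ ^ 2 :=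
    D.bm_PI_mono C hθ' hR0 hloc huc hus D.bm_continuous_zc.norm.continuousOn
      (fun x _ _ => norm_nonneg _) fun x hx _ => by linarith [D.bm_half_le hθ' hx]
  have e5 : D.PI (fun x => ‖D.zc x‖ / ‖x‖ * ‖Qe 𝔤 C σ 0 u x‖ ^ 2) ≤
      1 * D.PI fun x => (1 : ℝ) * ‖Qe 𝔤 C σ 0 u x‖ ^ 2 :=
    D.bm_PI_mono C hθ' hR0 hloc hQc hQs (g₂ := fun _ => 1) continuousOn_const
      (fun x _ _ => by positivity) fun x _ hxR => by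
        rw [mul_one, div_le_one (lt_of_lt_of_le hR0 hxR)]
        exact D.norm_zc_le x
  simp only [one_mul] at e5
  have key : D.PI (fun x => ‖x‖ * ‖u x‖ ^ 2) ≤ 4 * BC * D.PI fun x => ‖Qe 𝔤 C σ 0 u x‖ ^ 2 := by
    have := mul_le_mul_of_nonneg_left e5 hBC.le
    linarith
  unfold PI at key
  simp only [hpQ] at key
  refine le_of_eq_of_le (integral_congr_ae (Eventually.of_forall fun x => ?_)) key
  simp only
  rw [mul_left_comm, ← hpu x, mul_left_comm]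

end Levi

end Crest.Agent.R330

end
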